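import Vale.Agent.P237.Petty.Cor.Low20.H2c.Data

/-!
# P237: kernel checks of boxes 7 to 10
-/

namespace Vale.Agent.P237.Petty.Cor.Low20.H2c

def check7_1 : cutAll dat.Z1 ((boxAll dat box7).drop 30)
  [.leaf, (.split 0 .leaf .leaf), .leaf, .leaf, .leaf, .leaf, .leaf, .leaf] = true := by
  decide +kernel

def check8_0 : cutAll dat.Z1 ((boxAll dat box8).take 28)
  [.leaf, .leaf, .leaf, .leaf, .leaf, .leaf, .leaf, .leaf, .leaf, .leaf, .leaf, .leaf, .leaf, .leaf,
    .leaf, .leaf, .leaf, (.split 2 .leaf (.split 2 .leaf (.split 0 (.split 2 .leaf (.split 2 .leaf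
    .leaf)) (.split 2 .leaf (.split 2 .leaf .leaf))))), .leaf, (.split 2 .leaf (.split 2 .leaf
    (.split 0 .leaf .leaf))), .leaf, .leaf, .leaf, .leaf, .leaf, .leaf, (.split 2 .leaf (.split 2
    .leaf (.split 0 (.split 2 .leaf (.split 2 .leaf .leaf)) (.split 2 .leaf (.split 2 .leaf
    .leaf))))), .leaf] = true := by
  decide +kernel

def check8_1 : cutAll dat.Z1 ((boxAll dat box8).drop 28)
  [(.split 2 .leaf (.split 2 .leaf (.split 0 .leaf .leaf))), .leaf, .leaf, (.split 0 .leaf .leaf),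
    .leaf, .leaf, .leaf, .leaf, .leaf, .leaf] = true := by
  decide +kernel

def check9_0 : cutAll dat.Z1 ((boxAll dat box9).take 27)
  [.leaf, .leaf, .leaf, .leaf, .leaf, .leaf, .leaf, .leaf, .leaf, .leaf, .leaf, .leaf, .leaf, .leaf,
    .leaf, .leaf, .leaf, (.split 2 .leaf (.split 2 .leaf (.split 0 (.split 2 .leaf (.split 2 .leaf
    .leaf)) (.split 2 .leaf (.split 2 .leaf .leaf))))), (.split 2 (.split 2 (.split 0 .leaf .leaf)
    .leaf) .leaf), .leaf, .leaf, .leaf, .leaf, .leaf, .leaf, .leaf, (.split 2 .leaf (.split 2 .leaf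
    (.split 0 (.split 2 .leaf (.split 2 .leaf .leaf)) (.split 2 .leaf (.split 2 .leaf .leaf)))))] = true := by
  decide +kernel

def check9_1 : cutAll dat.Z1 ((boxAll dat box9).drop 27)
  [(.split 2 (.split 2 (.split 0 .leaf .leaf) .leaf) .leaf), .leaf, .leaf, .leaf, (.split 0 .leaf
    .leaf), .leaf, .leaf, .leaf, .leaf, .leaf, .leaf] = true := by
  decide +kernel

def check10 : cutAll dat.Z1 (boxAll dat box10)
  [.leaf, .leaf, .leaf, .leaf, .leaf, .leaf, .leaf, .leaf, .leaf, .leaf, .leaf, .leaf, .leaf, .leaf,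
    .leaf, .leaf, .leaf, .leaf, (.split 2 (.split 2 .leaf .leaf) .leaf), .leaf, .leaf, .leaf, .leaf,
    .leaf, .leaf, .leaf, .leaf, (.split 2 (.split 2 .leaf .leaf) .leaf), .leaf, .leaf, .leaf,
    (.split 0 .leaf .leaf), .leaf, .leaf, .leaf, .leaf, .leaf, .leaf] = true := by
  decide +kernel

end Vale.Agent.P237.Petty.Cor.Low20.H2c
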