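import Vale.Agent.P237.Petty.Cor.Low20.H2c.Data

/-!
# P237: kernel checks of boxes 16 to 18
-/

namespace Vale.Agent.P237.Petty.Cor.Low20.H2c

def check16_1 : cutAll dat.Z1 ((boxAll dat box16).drop 29)
  [.leaf, .leaf, (.split 0 .leaf .leaf), .leaf, .leaf, .leaf, .leaf, .leaf, .leaf] = true := by
  decide +kernel

def check17_0 : cutAll dat.Z1 ((boxAll dat box17).take 26)
  [.leaf, .leaf, .leaf, .leaf, .leaf, (.split 0 .leaf (.split 1 .leaf .leaf)), .leaf, (.split 0
    .leaf (.split 1 .leaf .leaf)), .leaf, .leaf, .leaf, .leaf, .leaf, .leaf, (.split 2 .leaf .leaf),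
    (.split 2 .leaf .leaf), .leaf, (.split 2 (.split 2 .leaf (.split 0 .leaf .leaf)) (.split 2
    (.split 0 .leaf .leaf) (.split 0 .leaf .leaf))), .leaf, .leaf, .leaf, .leaf, .leaf, (.split 2
    .leaf .leaf), (.split 2 .leaf .leaf), .leaf] = true := by
  decide +kernel

def check17_1 : cutAll dat.Z1 ((boxAll dat box17).drop 26)
  [(.split 2 (.split 2 .leaf (.split 0 .leaf .leaf)) (.split 2 (.split 0 .leaf .leaf) (.split 0
    .leaf .leaf))), .leaf, .leaf, .leaf, .leaf, (.split 0 .leaf .leaf), .leaf, .leaf, .leaf, .leaf,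
    .leaf, .leaf] = true := by
  decide +kernel

def check18_0 : cutAll dat.Z1 ((boxAll dat box18).take 18)
  [.leaf, .leaf, .leaf, .leaf, .leaf, (.split 0 .leaf (.split 1 .leaf .leaf)), .leaf, (.split 0
    .leaf (.split 1 .leaf .leaf)), .leaf, .leaf, .leaf, (.split 2 .leaf (.split 2 (.split 0 .leaf
    (.split 2 .leaf .leaf)) .leaf)), .leaf, .leaf, (.split 2 .leaf .leaf), .leaf, (.split 2 (.split
    2 .leaf (.split 0 .leaf .leaf)) (.split 2 (.split 0 .leaf .leaf) (.split 0 .leaf .leaf))),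
    (.split 2 (.split 2 (.split 0 .leaf .leaf) (.split 0 .leaf .leaf)) (.split 2 (.split 0 .leaf
    .leaf) (.split 0 .leaf .leaf)))] = true := by
  decide +kernel

def check18_1 : cutAll dat.Z1 (((boxAll dat box18).drop 18).take 13)
  [(.split 2 (.split 2 (.split 0 .leaf .leaf) (.split 0 .leaf .leaf)) (.split 2 (.split 0 .leaf
    .leaf) (.split 0 .leaf .leaf))), .leaf, (.split 2 .leaf (.split 2 (.split 0 .leaf (.split 2
    .leaf .leaf)) .leaf)), .leaf, .leaf, (.split 2 .leaf .leaf), .leaf, (.split 2 (.split 2 .leaf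
    (.split 0 .leaf .leaf)) (.split 2 (.split 0 .leaf .leaf) (.split 0 .leaf .leaf))), (.split 2
    (.split 2 (.split 0 .leaf .leaf) (.split 0 .leaf .leaf)) (.split 2 (.split 0 .leaf .leaf)
    (.split 0 .leaf .leaf))), (.split 2 (.split 2 (.split 0 .leaf .leaf) (.split 0 .leaf .leaf))
    (.split 2 (.split 0 .leaf .leaf) (.split 0 .leaf .leaf))), .leaf, .leaf, .leaf] = true := by
  decide +kernel

def check18_2 : cutAll dat.Z1 (((boxAll dat box18).drop 18).drop 13)
  [.leaf, .leaf, .leaf, .leaf, .leaf, .leaf, .leaf] = true := by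
  decide +kernel

end Vale.Agent.P237.Petty.Cor.Low20.H2c
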