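import Vale.Agent.P237.Petty.Cor.Low20.H2c.Data

/-!
# P237: kernel checks of boxes 19 to 19
-/

namespace Vale.Agent.P237.Petty.Cor.Low20.H2c

def check19_0 : cutAll dat.Z1 ((boxAll dat box19).take 15)
  [.leaf, .leaf, .leaf, .leaf, .leaf, (.split 0 (.split 1 .leaf .leaf) (.split 1 .leaf (.split 0
    (.split 1 .leaf .leaf) (.split 1 .leaf .out)))), .leaf, (.split 0 (.split 1 .leaf .leaf) (.split
    1 .leaf (.split 0 (.split 1 .leaf (.split 0 (.split 1 .leaf .out) (.split 1 .leaf .out)))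
    (.split 1 .leaf .out)))), .leaf, (.split 0 .leaf (.split 1 .leaf (.split 0 (.split 1 .leaf
    (.split 0 (.split 1 .leaf .out) (.split 1 .leaf .out))) (.split 1 .leaf .out)))), .leaf, (.split
    2 .leaf .leaf), .leaf, .leaf, (.split 2 (.split 2 (.split 0 .leaf .leaf) (.split 0 .leaf .leaf))
    (.split 2 (.split 0 .leaf .leaf) (.split 0 .leaf .leaf)))] = true := by
  decide +kernel

def check19_1 : cutAll dat.Z1 (((boxAll dat box19).drop 15).take 8)
  [(.split 2 (.split 2 (.split 0 .leaf .leaf) (.split 0 .leaf .leaf)) (.split 2 (.split 0 .leaf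
    .leaf) (.split 0 .leaf .leaf))), (.split 2 (.split 2 (.split 0 .leaf .leaf) (.split 0 .leaf
    .leaf)) (.split 2 (.split 0 .leaf .leaf) (.split 0 .leaf .leaf))), (.split 2 (.split 2 (.split 0
    .leaf .leaf) (.split 0 .leaf .leaf)) (.split 2 (.split 0 .leaf .leaf) (.split 0 .leaf .leaf))),
    (.split 2 (.split 2 (.split 0 .leaf .leaf) (.split 0 .leaf .leaf)) (.split 2 (.split 0 .leaf
    .leaf) (.split 0 .leaf .leaf))), (.split 2 (.split 2 (.split 0 .leaf .leaf) .leaf) .leaf),
    (.split 2 .leaf .leaf), .leaf, .leaf] = true := by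
  decide +kernel

def check19_2 : cutAll dat.Z1 ((((boxAll dat box19).drop 15).drop 8).take 6)
  [(.split 2 (.split 2 (.split 0 .leaf .leaf) (.split 0 .leaf .leaf)) (.split 2 (.split 0 .leaf
    .leaf) (.split 0 .leaf .leaf))), (.split 2 (.split 2 (.split 0 .leaf .leaf) (.split 0 .leaf
    .leaf)) (.split 2 (.split 0 .leaf .leaf) (.split 0 .leaf .leaf))), (.split 2 (.split 2 (.split 0
    .leaf .leaf) (.split 0 .leaf .leaf)) (.split 2 (.split 0 .leaf .leaf) (.split 0 .leaf .leaf))),
    (.split 2 (.split 2 (.split 0 .leaf .leaf) (.split 0 .leaf .leaf)) (.split 2 (.split 0 .leaf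
    .leaf) (.split 0 .leaf .leaf))), (.split 2 (.split 2 (.split 0 .leaf .leaf) (.split 0 .leaf
    .leaf)) (.split 2 (.split 0 .leaf .leaf) (.split 0 .leaf .leaf))), (.split 2 (.split 2 (.split 0
    .leaf .leaf) .leaf) .leaf)] = true := by
  decide +kernel

def check19_3 : cutAll dat.Z1 ((((boxAll dat box19).drop 15).drop 8).drop 6)
  [(.split 0 .leaf (.split 1 .leaf (.split 0 (.split 1 .leaf (.split 0 (.split 1 .leaf .out) (.split
    1 .leaf .out))) (.split 1 .leaf .out)))), .leaf, (.split 0 .leaf .leaf), .leaf, .leaf, .leaf,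
    .leaf, .leaf, .leaf] = true := by
  decide +kernel

end Vale.Agent.P237.Petty.Cor.Low20.H2c
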