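import Vale.Agent.P237.Petty.Cor.Low20.H2c.Data

/-!
# P237: kernel checks of boxes 20 to 21
-/

namespace Vale.Agent.P237.Petty.Cor.Low20.H2c

def check20_0 : cutAll dat.Z1 ((boxAll dat box20).take 31)
  [.leaf, .leaf, .leaf, .leaf, .leaf, (.split 0 .leaf (.split 1 .leaf .leaf)), .leaf, (.split 0
    .leaf (.split 1 .leaf (.split 0 (.split 1 .leaf (.split 0 .leaf .out)) (.split 1 .leaf .out)))),
    .leaf, (.split 0 .leaf (.split 1 .leaf (.split 0 (.split 1 .leaf (.split 0 (.split 1 .leaf .out)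
    .out)) (.split 1 .leaf .out)))), .leaf, .leaf, .leaf, .leaf, .leaf, .leaf, .leaf, .leaf, .leaf,
    .leaf, .leaf, .leaf, .leaf, .leaf, .leaf, .leaf, .leaf, .leaf, .leaf, (.split 0 .leaf (.split 1
    .leaf (.split 0 (.split 1 .leaf (.split 0 .leaf .out)) (.split 1 .leaf .out)))), .leaf] = true := by
  decide +kernel

def check20_1 : cutAll dat.Z1 ((boxAll dat box20).drop 31)
  [(.split 0 .leaf .leaf), .leaf, .leaf, .leaf, .leaf, .leaf, .leaf] = true := by
  decide +kernel

def check21_0 : cutAll dat.Z1 ((boxAll dat box21).take 15)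
  [.leaf, .leaf, .leaf, .leaf, .leaf, (.split 0 .leaf (.split 1 .leaf .leaf)), .leaf, (.split 0
    .leaf (.split 1 .leaf (.split 0 (.split 1 .leaf .out) (.split 1 .leaf .out)))), .leaf, (.split 0
    .leaf (.split 1 .leaf (.split 0 (.split 1 .leaf .out) (.split 1 .leaf .out)))), .leaf, .leaf,
    (.split 2 .leaf (.split 2 .leaf (.split 0 .leaf .leaf))), (.split 2 (.split 2 (.split 0 .leaf
    .leaf) (.split 0 .leaf .leaf)) (.split 2 (.split 0 .leaf .leaf) (.split 0 .leaf .leaf))),
    (.split 2 (.split 2 (.split 0 .leaf .leaf) (.split 0 .leaf .leaf)) (.split 2 (.split 0 .leaf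
    .leaf) (.split 0 .leaf .leaf)))] = true := by
  decide +kernel

def check21_1 : cutAll dat.Z1 (((boxAll dat box21).drop 15).take 7)
  [(.split 2 (.split 2 (.split 0 .leaf .leaf) (.split 0 .leaf .leaf)) (.split 2 (.split 0 .leaf
    .leaf) (.split 0 .leaf .leaf))), (.split 2 (.split 2 (.split 0 .leaf .leaf) (.split 0 .leaf
    .leaf)) (.split 2 (.split 0 .leaf .leaf) (.split 0 .leaf .leaf))), (.split 2 (.split 2 (.split 0
    .leaf .leaf) (.split 0 .leaf .leaf)) (.split 2 (.split 0 .leaf .leaf) (.split 0 .leaf .leaf))),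
    (.split 2 (.split 2 (.split 0 .leaf .leaf) (.split 0 .leaf .leaf)) (.split 2 (.split 0 .leaf
    .leaf) (.split 0 .leaf .leaf))), .leaf, .leaf, (.split 2 .leaf (.split 2 .leaf (.split 0 .leaf
    .leaf)))] = true := by
  decide +kernel

end Vale.Agent.P237.Petty.Cor.Low20.H2c
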