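import Vale.Agent.P237.Petty.Cor.Low20.H2c.Check0
import Vale.Agent.P237.Petty.Cor.Low20.H2c.Check1
import Vale.Agent.P237.Petty.Cor.Low20.H2c.Check2
import Vale.Agent.P237.Petty.Cor.Low20.H2c.Check3
import Vale.Agent.P237.Petty.Cor.Low20.H2c.Check4
import Vale.Agent.P237.Petty.Cor.Low20.H2c.Check5
import Vale.Agent.P237.Petty.Cor.Low20.H2c.Check6
import Vale.Agent.P237.Petty.Cor.Low20.H2c.Check7
import Vale.Agent.P237.Petty.Cor.Low20.H2c.Check8
import Vale.Agent.P237.Petty.Cor.Low20.H2c.Check9
import Vale.Agent.P237.Petty.Cor.Low20.H2c.Check10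
import Vale.Agent.P237.Petty.Cor.Low20.Chunks
import Vale.Agent.P237.Petty.Cor.Low20.H2c.Rest

/-!
# P237: a cell of small values, dimensions 26 to 44
-/

namespace Vale.Agent.P237.Petty.Cor.Low20.H2c

theorem sound0 : BoxSound dat box0 ∧ TopSound dat box0 :=
  bound_of_boxAll (cutAll_of_take 34 check0_0
    check0_1)

theorem sound1 : BoxSound dat box1 ∧ TopSound dat box1 :=
  bound_of_boxAll (cutAll_of_take 31 check1_0
    check1_1)

theorem sound2 : BoxSound dat box2 ∧ TopSound dat box2 :=
  bound_of_boxAll (cutAll_of_take 30 check2_0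
    check2_1)

theorem sound3 : BoxSound dat box3 ∧ TopSound dat box3 :=
  bound_of_boxAll (cutAll_of_take 31 check3_0
    check3_1)

theorem sound4 : BoxSound dat box4 ∧ TopSound dat box4 :=
  bound_of_boxAll (cutAll_of_take 30 check4_0
    check4_1)

theorem sound5 : BoxSound dat box5 ∧ TopSound dat box5 :=
  bound_of_boxAll (cutAll_of_take 30 check5_0
    check5_1)

theorem sound6 : BoxSound dat box6 ∧ TopSound dat box6 :=
  bound_of_boxAll (cutAll_of_take 26 check6_0
    check6_1)

theorem sound7 : BoxSound dat box7 ∧ TopSound dat box7 :=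
  bound_of_boxAll (cutAll_of_take 30 check7_0
    check7_1)

theorem sound8 : BoxSound dat box8 ∧ TopSound dat box8 :=
  bound_of_boxAll (cutAll_of_take 28 check8_0
    check8_1)

theorem sound9 : BoxSound dat box9 ∧ TopSound dat box9 :=
  bound_of_boxAll (cutAll_of_take 27 check9_0
    check9_1)

theorem sound10 : BoxSound dat box10 ∧ TopSound dat box10 :=
  bound_of_boxAll check10

theorem sound11 : BoxSound dat box11 ∧ TopSound dat box11 :=
  bound_of_boxAll check11

theorem sound12 : BoxSound dat box12 ∧ TopSound dat box12 :=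
  bound_of_boxAll check12

theorem sound13 : BoxSound dat box13 ∧ TopSound dat box13 :=
  bound_of_boxAll (cutAll_of_take 31 check13_0
    check13_1)

theorem sound14 : BoxSound dat box14 ∧ TopSound dat box14 :=
  bound_of_boxAll (cutAll_of_take 26 check14_0
    check14_1)

theorem sound15 : BoxSound dat box15 ∧ TopSound dat box15 :=
  bound_of_boxAll (cutAll_of_take 26 check15_0
    check15_1)

theorem sound16 : BoxSound dat box16 ∧ TopSound dat box16 :=
  bound_of_boxAll (cutAll_of_take 29 check16_0
    check16_1)

theorem sound17 : BoxSound dat box17 ∧ TopSound dat box17 :=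
  bound_of_boxAll (cutAll_of_take 26 check17_0
    check17_1)

theorem sound18 : BoxSound dat box18 ∧ TopSound dat box18 :=
  bound_of_boxAll (cutAll_of_take 18 check18_0
    (cutAll_of_take 13 check18_1
    check18_2))

theorem sound19 : BoxSound dat box19 ∧ TopSound dat box19 :=
  bound_of_boxAll (cutAll_of_take 15 check19_0
    (cutAll_of_take 8 check19_1
    (cutAll_of_take 6 check19_2
    check19_3)))

theorem sound20 : BoxSound dat box20 ∧ TopSound dat box20 :=
  bound_of_boxAll (cutAll_of_take 31 check20_0
    check20_1)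

theorem sound21 : BoxSound dat box21 ∧ TopSound dat box21 :=
  bound_of_boxAll (cutAll_of_take 15 check21_0
    (cutAll_of_take 7 check21_1
    (cutAll_of_take 5 check21_2
    check21_3)))

theorem sound22 : BoxSound dat box22 ∧ TopSound dat box22 :=
  bound_of_boxAll (cutAll_of_take 17 check22_0
    (cutAll_of_take 9 check22_1
    check22_2))

theorem sound23 : BoxSound dat box23 ∧ TopSound dat box23 :=
  bound_of_boxAll check23

theorem bulk_sound : ∀ c ∈ boxes.take 24, BoxSound dat c ∧ TopSound dat c := by
  rw [show boxes.take 24 = bulk from rfl]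
  simp only [bulk, List.forall_mem_cons]
  exact ⟨sound0, sound1, sound2, sound3,
    sound4, sound5, sound6, sound7,
    sound8, sound9, sound10, sound11,
    sound12, sound13, sound14, sound15,
    sound16, sound17, sound18, sound19,
    sound20, sound21, sound22, sound23,
    fun _ h => absurd h List.not_mem_nil⟩

theorem corCell {p : ℕ} (h0 : 26 ≤ p + 2) (h1 : p + 2 ≤ 44) :
    CorCell p ((6 / 5 : ℝ) / ((p : ℝ) + 2)) ((12 / 5 : ℝ) / ((p : ℝ) + 2)) := by
  have hs := shapeOk
  simp only [Bool.and_eq_true, decide_eq_true_eq] at hs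
  obtain ⟨⟨s1, s2⟩, s4⟩ := hs
  have ha := atOk
  rw [List.all_eq_true] at ha
  have h2 := ha (p - 24) (List.mem_range.2 (by omega))
  rw [show 24 + (p - 24) = p by omega] at h2
  have h := corCell_of_checks s1 h2 (farSound_of checkFar) (fun c hc => (bulk_sound c hc).1) s2
    (millsSound_of checkMills millsFull) s4 fun c hc => (bulk_sound c hc).2
  convert h using 2 <;> norm_num [dat]

end Vale.Agent.P237.Petty.Cor.Low20.H2c
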