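import Vale.Agent.P237.Petty.Cor.Low20.H2c.Data

/-!
# P237: kernel checks of boxes 22 to 23
-/

namespace Vale.Agent.P237.Petty.Cor.Low20.H2c

def check22_2 : cutAll dat.Z1 (((boxAll dat box22).drop 17).drop 9)
  [(.split 2 (.split 2 (.split 0 .leaf .leaf) (.split 0 .leaf .leaf)) (.split 2 (.split 0 .leaf
    .leaf) (.split 0 .leaf .leaf))), (.split 2 (.split 2 (.split 0 .leaf .leaf) (.split 0 .leaf
    .leaf)) (.split 2 (.split 0 .leaf .leaf) (.split 0 .leaf .leaf))), .leaf, (.split 0 .leaf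
    (.split 1 .leaf (.split 0 .leaf .out))), .leaf, .leaf, .leaf, .leaf, .leaf, .leaf, .leaf, .leaf] = true := by
  decide +kernel

def check23 : cutAll dat.Z1 (boxAll dat box23)
  [.leaf, .leaf, .leaf, .leaf, .leaf, .leaf, .leaf, .leaf, .leaf, (.split 0 .leaf .out), .leaf,
    .leaf, .leaf, .leaf, .leaf, .leaf, .leaf, .leaf, .leaf, .leaf, .leaf, .leaf, .leaf, .leaf,
    .leaf, .leaf, .leaf, .leaf, .leaf, .leaf, .leaf, (.split 0 .leaf .out), .leaf, .leaf, .leaf,
    .leaf, .leaf, .leaf] = true := by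
  decide +kernel

end Vale.Agent.P237.Petty.Cor.Low20.H2c
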